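import Vale.Agent.P143_A.Kirchhoff

open Finset
namespace Vale.Agent.P143

/-- `T` is a spanning tree of the finite graph with vertex set `W` and edge set `E`. -/
def IsST {V : Type*} (W : Finset V) (E : Finset (Sym2 V)) (T : Set (Sym2 V)) : Prop :=
  T ⊆ E ∧ (SimpleGraph.fromEdgeSet T).IsAcyclic ∧
    ∀ u ∈ W, ∀ v ∈ W, (SimpleGraph.fromEdgeSet T).Reachable u v

/-- PART A (Kirchhoff's law with conditioning). -/
theorem kirchhoff {V : Type*} [DecidableEq V] (W : Finset V) (E : Finset (Sym2 V))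
    (hEW : ∀ e ∈ E, ∀ v ∈ e, v ∈ W) (hdiag : ∀ e ∈ E, ¬ e.IsDiag) (O C : Set (Sym2 V))
    {x y : V} (hxy : s(x, y) ∈ E) (hO : s(x, y) ∉ O) (hC : s(x, y) ∉ C)
    (hne : ∃ T, IsST W E T ∧ O ⊆ T ∧ Disjoint C T) :
    ∃ (θ : V → V → ℝ) (g : V → ℝ),
      (∀ a b, θ a b = - θ b a) ∧
      (∀ a b, s(a, b) ∉ E → θ a b = 0) ∧
      (∀ a b, s(a, b) ∈ C → θ a b = 0) ∧
      (∀ a, ∑ b ∈ W, θ a b = (if a = x then 1 else 0) - (if a = y then 1 else 0)) ∧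
      (∀ a b, s(a, b) ∈ E → s(a, b) ∉ O → s(a, b) ∉ C → θ a b = g a - g b) ∧
      (∀ a b, s(a, b) ∈ E → s(a, b) ∈ O → g a = g b) ∧
      θ x y = ({T | IsST W E T ∧ O ⊆ T ∧ Disjoint C T ∧ s(x, y) ∈ T}.ncard : ℝ) /
        ({T | IsST W E T ∧ O ⊆ T ∧ Disjoint C T}.ncard : ℝ) :=
  Vale.Agent.P143A.kirchhoff W E hEW hdiag O C hxy hO hC hne

end Vale.Agent.P143
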